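import Vale.Agent.P280.S.H348.Place

/-! # P280, Theorem S: a place of `K ⊇ R` dominating the point `q` -/

namespace Vale.Agent.P280.S.H265

open Vale.Agent.P280.S.H348

/-- **Lemma V.** -/
theorem exists_place {R : Type} [CommRing R] [Algebra ℂ R] {K : Type} [Field K] [Algebra ℂ K]
    [Algebra R K] [IsScalarTower ℂ R K] (hinj : Function.Injective (algebraMap R K))
    (q : R →ₐ[ℂ] ℂ) :
    ∃ P : Place K, (∀ r : R, algebraMap R K r ∈ P.A) ∧
      ∀ r : R, P.red (algebraMap R K r) = algebraMap ℂ P.k (q r) := by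
  set A : Subring K := (algebraMap R K).range with hA
  have hsurj : Function.Surjective (algebraMap R K).rangeRestrict :=
    (algebraMap R K).rangeRestrict_surjective
  set I : Ideal A := Ideal.map (algebraMap R K).rangeRestrict (RingHom.ker (q : R →+* ℂ)) with hI
  have hI1 : I ≠ ⊤ := by
    intro h
    have h1 : (1 : A) ∈ I := by rw [h]; exact Submodule.mem_top
    rw [hI, Ideal.mem_map_iff_of_surjective _ hsurj] at h1
    obtain ⟨r, hr, hr1⟩ := h1
    have h2 : algebraMap R K r = algebraMap R K 1 := by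
      have := congrArg Subtype.val hr1
      rw [map_one]
      exact this
    have h3 : r = 1 := hinj h2
    rw [h3, RingHom.mem_ker, map_one] at hr
    exact one_ne_zero hr
  obtain ⟨V, hV, hVI⟩ := Ideal.image_subset_nonunits_valuationSubring I hI1
  have hmem : ∀ r : R, algebraMap R K r ∈ V := fun r => hV ⟨r, rfl⟩
  let P : Place K := ⟨V, fun c => by
    rw [IsScalarTower.algebraMap_apply ℂ R K]
    exact hmem _⟩
  refine ⟨P, hmem, fun r => ?_⟩
  have h0 : q (r - algebraMap ℂ R (q r)) = 0 := by
    rw [map_sub, AlgHom.commutes]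
    exact sub_self _
  have h1 : algebraMap R K (r - algebraMap ℂ R (q r)) ∈ V.nonunits := by
    apply hVI
    refine ⟨(algebraMap R K).rangeRestrict (r - algebraMap ℂ R (q r)), ?_, rfl⟩
    exact Ideal.mem_map_of_mem _ (RingHom.mem_ker.2 h0)
  have h2 : P.red (algebraMap R K (r - algebraMap ℂ R (q r))) = 0 :=
    P.red_eq_zero (V.mem_nonunits_iff.1 h1)
  have h3 : algebraMap R K r = algebraMap R K (r - algebraMap ℂ R (q r))
      + algebraMap ℂ K (q r) := by
    rw [map_sub, ← IsScalarTower.algebraMap_apply]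
    ring
  rw [h3, P.red_add (hmem _) (P.hC _), h2, zero_add, P.red_algebraMap]

end Vale.Agent.P280.S.H265
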