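import Vale.Agent.P280.S.H265.Source
import Vale.Agent.P280.S.H265.PlaceAt
import Vale.Agent.P280.S.H348.Newton
import Vale.Agent.P280.S.H980.Tools
import Vale.Agent.P280.S.H145.Uniq

/-!
# P280, Theorem S, row C2: a fixed point of weight `μ` is joined to `Y` by a chain of degree
at most `e - μ`
-/

open Polynomial Vale.Agent.P280.S.H348

namespace Vale.Agent.P280.S.H265

variable {R : Type} [CommRing R] [Algebra ℂ R] {A : ℕ → Submodule ℂ R} [GradedAlgebra A]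

/-- Elements of degree one are linear combinations of the generators. -/
theorem mem_span_one {T : Set R} (hT : ∀ s ∈ T, s ∈ A 1) (hgen : Algebra.adjoin ℂ T = ⊤)
    {h : R} (hh : h ∈ A 1) : h ∈ Submodule.span ℂ T := by
  have h1 := mem_span_mon hT hgen hh
  refine Submodule.span_mono ?_ h1
  intro x hx
  have key : ∀ d x, Mon T d x → d = 1 → x ∈ T := by
    intro d x hx
    cases hx with
    | one => intro h0; exact absurd h0 (by omega)
    | @mul d x s hx hs =>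
      intro h0
      have hd : d = 0 := by omega
      subst hd
      cases hx
      rwa [one_mul]
  exact key 1 x hx rfl

/-- If a linear map does not vanish on `A 1`, it does not vanish on a generator. -/
theorem exists_gen_ne {T : Set R} (hT : ∀ s ∈ T, s ∈ A 1) (hgen : Algebra.adjoin ℂ T = ⊤)
    {V : Type} [AddCommGroup V] [Module ℂ V] (f : R →ₗ[ℂ] V) {h : R} (hh : h ∈ A 1)
    (hf : f h ≠ 0) : ∃ s ∈ T, f s ≠ 0 := by
  by_contra hcon
  push Not at hcon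
  apply hf
  have h1 : Submodule.span ℂ T ≤ LinearMap.ker f := by
    rw [Submodule.span_le]
    intro s hs
    exact hcon s hs
  exact h1 (mem_span_one hT hgen hh)

section scal
omit [GradedAlgebra A]
variable {k : Type} [Field k] [Algebra ℂ k]

/-- A constant curve between two representatives of a point. -/
theorem ch_scalar {p p' : R →ₐ[ℂ] k} (hp : NV A p) (hp' : NV A p') {c : k} (hc : c ≠ 0)
    (h : ∀ d, ∀ r ∈ A d, p' r = c ^ d * p r) : Ch A k 0 p p' := by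
  have hCf : ∀ r, ((Algebra.ofId k k[X]).restrictScalars ℂ |>.comp p) r = C (p r) := fun r => rfl
  refine Ch.single A (ψ := (Algebra.ofId k k[X]).restrictScalars ℂ |>.comp p) hp hp' ?_ ?_ ?_
  · intro d r _
    rw [hCf, natDegree_C]
    exact Nat.zero_le _
  · exact ⟨1, one_ne_zero, fun d r _ => by rw [hCf, coeff_C_zero, one_pow, one_mul]⟩
  · refine ⟨c⁻¹, inv_ne_zero hc, fun d r hr => ?_⟩
    rw [hCf, Nat.mul_zero, coeff_C_zero, h d r hr, ← mul_assoc, ← mul_pow, inv_mul_cancel₀ hc,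
      one_pow, one_mul]

end scal

theorem chain_of_fixed_aux {K : Type} [Field K] [IsAlgClosed K] [Algebra ℂ K] (ι : R →ₐ[ℂ] K)
    (hι : Function.Injective ι) (hft : Algebra.FiniteType ℂ R)
    (hgen : Algebra.adjoin ℂ {h : R | h ∈ A 1} = ⊤) {J : Set R} {e : ℕ}
    {φ : R →ₐ[ℂ] R[X]} (hc : IsCoaction A e φ) (hJ : ∀ r ∈ J, ∃ d : ℕ, r ∈ A d)
    {ρ : R →ₐ[ℂ] R} (hρ : ∀ d, ∀ r ∈ A d, ρ r = (φ r).coeff (d * e)) (hρJ : ∀ r ∈ J, ρ r = 0)
    {h₂ : R} (hh₂ : h₂ ∈ A 1) (hρ0 : ρ h₂ ≠ 0) (q : R →ₐ[ℂ] ℂ) (μ : ℤ) (hq : NV A q)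
    (hfix : T.IsFixed (bi A φ) q μ) :
    ∃ (n : ℕ) (y : R →ₐ[ℂ] ℂ), (n : ℤ) + μ ≤ e ∧ NV A y ∧ (∀ h ∈ J, y h = 0) ∧
      Ch A ℂ n q y := by
  classical
  obtain ⟨S, hS, hSgen⟩ := exists_gens hft hgen
  have hS' : ∀ s ∈ (S : Set R), s ∈ A 1 := fun s hs => hS s hs
  -- weights of `q`
  obtain ⟨h₀, hh₀, hq₀⟩ := hq
  have hqw : ∀ d, ∀ r ∈ A d, ∀ i : ℕ, q ((φ r).coeff i) ≠ 0 → (i : ℤ) = d • μ := fun d r hr i hi =>
    hfix d i _ (coeff_mem_bi hc hr i) hi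
  obtain ⟨m₀, hm₀, hm₀'⟩ : ∃ m₀ : ℕ, μ = (m₀ : ℤ) ∧ q ((φ h₀).coeff m₀) ≠ 0 := by
    have h1 : ∃ i ∈ Finset.range (1 * e + 1), q ((φ h₀).coeff i) ≠ 0 := by
      by_contra hcon
      push Not at hcon
      apply hq₀
      rw [eq_sum_coeff hc hh₀, map_sum]
      exact Finset.sum_eq_zero hcon
    obtain ⟨i, -, hi⟩ := h1
    have h2 := hqw 1 h₀ hh₀ i hi
    rw [one_smul] at h2
    exact ⟨i, h2.symm, hi⟩
  have hm₀e : m₀ ≤ e := by
    by_contra hcon
    apply hm₀'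
    rw [coeff_eq_zero_of_natDegree_lt, map_zero]
    have := hc.deg 1 h₀ hh₀
    omega
  have hqz : ∀ d, ∀ r ∈ A d, ∀ i : ℕ, i ≠ d * m₀ → q ((φ r).coeff i) = 0 := by
    intro d r hr i hi
    by_contra hcon
    have h1 := hqw d r hr i hcon
    rw [hm₀, nsmul_eq_mul] at h1
    exact hi (by exact_mod_cast h1)
  have hqs : ∀ d, ∀ r ∈ A d, q ((φ r).coeff (d * m₀)) = q r := by
    intro d r hr
    conv_rhs => rw [eq_sum_coeff hc hr, map_sum]
    rw [Finset.sum_eq_single (d * m₀)]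
    · intro i _ hi
      exact hqz d r hr i hi
    · intro hi
      rw [Finset.mem_range, not_lt] at hi
      have := Nat.mul_le_mul_left d hm₀e
      omega
  -- the place
  let : Algebra R K := (ι : R →+* K).toAlgebra
  have : IsScalarTower ℂ R K := IsScalarTower.of_algebraMap_eq fun c => (ι.commutes c).symm
  obtain ⟨P, hPA, hPr⟩ := exists_place (R := R) (K := K) hι q
  have hPA' : ∀ r, ι r ∈ P.A := hPA
  have hPr' : ∀ r, P.red (ι r) = algebraMap ℂ P.k (q r) := hPr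
  have hlt : ∀ r, q r = 0 → P.A.valuation (ι r) < 1 := by
    intro r hr
    refine lt_of_le_of_ne (P.mem_iff.1 (hPA' r)) fun h1 => ?_
    apply P.red_ne_zero h1
    rw [hPr', hr, map_zero]
  have heq1 : ∀ r, q r ≠ 0 → P.A.valuation (ι r) = 1 := by
    intro r hr
    by_contra h1
    have h2 := P.red_eq_zero (lt_of_le_of_ne (P.mem_iff.1 (hPA' r)) h1)
    rw [hPr'] at h2
    exact hr ((FaithfulSMul.algebraMap_injective ℂ P.k) (by rw [h2, map_zero]))
  -- the curve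
  let Ψ : R →ₐ[ℂ] K[X] := (Polynomial.mapAlgHom ι).comp φ
  have hΨ : ∀ r i, (Ψ r).coeff i = ι ((φ r).coeff i) := by
    intro r i
    change ((φ r).map _).coeff i = _
    rw [coeff_map]
    rfl
  have hΨd : Deg A e Ψ := by
    intro d r hr
    exact natDegree_map_le.trans (hc.deg d r hr)
  let ψ : R →ₐ[ℂ] K[X] := rev A hΨd
  have hψ : ∀ d, ∀ r ∈ A d, ∀ i ≤ d * e, (ψ r).coeff i = ι ((φ r).coeff (d * e - i)) := by
    intro d r hr i hi
    rw [← hΨ]
    exact rev_coeff A hΨd hr hi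
  have hψ' : ∀ s ∈ S, ∀ i, ∃ r, (ψ s).coeff i = ι r ∧ (i ≠ e - m₀ → q r = 0) := by
    intro s hs i
    by_cases hi : i ≤ 1 * e
    · refine ⟨_, hψ 1 s (hS s hs) i hi, fun hne => hqz 1 s (hS s hs) _ ?_⟩
      omega
    · refine ⟨0, ?_, fun _ => map_zero q⟩
      rw [map_zero]
      exact coeff_eq_zero_of_natDegree_lt (lt_of_le_of_lt (rev_deg A hΨd 1 s (hS s hs))
        (not_le.1 hi))
  -- a generator which does not vanish at `q`
  obtain ⟨s₀, hs₀, hs₀'⟩ := exists_gen_ne hS' hSgen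
    (q.toLinearMap.comp (((Polynomial.lcoeff R m₀).restrictScalars ℂ).comp φ.toLinearMap))
    hh₀ hm₀'
  have hs₀'' : q ((φ s₀).coeff m₀) ≠ 0 := hs₀'
  have hne : S.Nonempty := ⟨s₀, hs₀⟩
  obtain ⟨m, hm⟩ := exists_max P hne ψ
  have hm1 : ∀ i, P.A.valuation (m i) ≤ 1 := by
    intro i
    obtain ⟨s, hs, hsm⟩ := hm.ex i
    obtain ⟨r, hr, -⟩ := hψ' s hs i
    rw [← hsm, hr]
    exact P.mem_iff.1 (hPA' r)
  have hm2 : ∀ i < e - m₀, P.A.valuation (m i) < 1 := by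
    intro i hi
    obtain ⟨s, hs, hsm⟩ := hm.ex i
    obtain ⟨r, hr, hr'⟩ := hψ' s hs i
    rw [← hsm, hr]
    exact hlt r (hr' hi.ne)
  have hm3 : P.A.valuation (m (e - m₀)) = 1 := by
    refine le_antisymm (hm1 _) ?_
    have h1 := hm.le (e - m₀) s₀ hs₀
    rw [hψ 1 s₀ (hS s₀ hs₀) (e - m₀) (by omega)] at h1
    have h2 : 1 * e - (e - m₀) = m₀ := by omega
    rw [h2, heq1 _ hs₀''] at h1
    exact h1
  -- the end vector
  obtain ⟨s₁, hs₁, hs₁'⟩ := exists_gen_ne hS' hSgen ρ.toLinearMap hh₂ hρ0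
  have hs₁'' : ρ s₁ ≠ 0 := hs₁'
  have hψ0 : ∀ d, ∀ r ∈ A d, (ψ r).coeff 0 = ι (ρ r) := by
    intro d r hr
    rw [hψ d r hr 0 (Nat.zero_le _), Nat.sub_zero, hρ d r hr]
  have hm0 : m 0 ≠ 0 := by
    intro h0
    have h1 := hm.le 0 s₁ hs₁
    rw [h0, map_zero, hψ0 1 s₁ (hS s₁ hs₁)] at h1
    have h2 : ι (ρ s₁) = 0 := by
      by_contra h3
      exact (Valuation.ne_zero_iff P.A.valuation).2 h3 (le_antisymm h1 zero_le)
    exact hs₁'' (hι (by rw [h2, map_zero]))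
  set δ : K := (m 0)⁻¹ with hδ
  have hδ1 : P.A.valuation (δ * m 0) = 1 := by
    rw [hδ, inv_mul_cancel₀ hm0, map_one]
  -- the constant curve
  let Ψ0 : R →ₐ[ℂ] K[X] := ((Algebra.ofId K K[X]).restrictScalars ℂ |>.comp (ι.comp ρ))
  have hΨ0 : ∀ r, Ψ0 r = C (ι (ρ r)) := fun r => rfl
  have hM : Max P S Ψ0 (fun i => if i = 0 then m 0 else 0) := by
    refine ⟨fun i s hs => ?_, fun i => ?_⟩
    · rw [hΨ0]
      by_cases hi : i = 0
      · subst hi
        rw [coeff_C_zero, ← hψ0 1 s (hS s hs), if_pos rfl]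
        exact hm.le 0 s hs
      · rw [coeff_C_of_ne_zero hi, if_neg hi]
    · by_cases hi : i = 0
      · subst hi
        obtain ⟨s, hs, hsm⟩ := hm.ex 0
        refine ⟨s, hs, ?_⟩
        rw [hΨ0, coeff_C_zero, ← hψ0 1 s (hS s hs), if_pos rfl]
        exact hsm
      · obtain ⟨s, hs⟩ := hne
        refine ⟨s, hs, ?_⟩
        rw [hΨ0, coeff_C_of_ne_zero hi, if_neg hi]
  obtain ⟨q₀, hq₀nv, hq₀'⟩ := vertex (γ := δ) (ρ := 1) (a := 0) hS hSgen hM (fun i => by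
      by_cases hi : i = 0
      · subst hi
        rw [pow_zero, mul_one, if_pos rfl, hδ1]
      · rw [if_neg hi, mul_zero, map_zero]
        exact zero_le) (fun i hi => absurd hi (by omega)) (by
      rw [pow_zero, mul_one, if_pos rfl, hδ1])
  have hq₀'' : ∀ d, ∀ r ∈ A d, q₀ r = P.red (δ ^ d * ι (ρ r)) := by
    intro d r hr
    rw [hq₀' d r hr, hΨ0, Nat.mul_zero, coeff_C_zero, pow_zero, mul_one]
  obtain ⟨n, hn, q', hch, c, hc0, hq'⟩ := newton (P := P) (ψ := ψ) (m := m) hS hSgen hm hδ1 hq₀nv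
    ⟨1, one_ne_zero, fun d r hr => by rw [one_pow, one_mul, hq₀'' d r hr, hψ0 d r hr]⟩
    (e - m₀) 1 1 one_ne_zero one_ne_zero (fun i => by rw [one_pow, one_mul, one_mul]; exact hm1 i)
    (fun i hi => by rw [one_pow, one_mul, one_mul]; exact hm2 i hi)
    (by rw [one_pow, one_mul, one_mul]; exact hm3)
  have hq'' : ∀ d, ∀ r ∈ A d, q' r = c ^ d * ((Algebra.ofId ℂ P.k).comp q) r := by
    intro d r hr
    have h1 : d * (e - m₀) ≤ d * e := Nat.mul_le_mul_left d (Nat.sub_le _ _)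
    have h2 : d * e - d * (e - m₀) = d * m₀ := by
      rw [← Nat.mul_sub]
      congr 1
      omega
    rw [hq' d r hr, one_pow, one_mul, one_pow, one_mul, hψ d r hr _ h1, h2, hPr', hqs d r hr]
    rfl
  have hqk : NV A ((Algebra.ofId ℂ P.k).comp q) := by
    refine ⟨h₀, hh₀, ?_⟩
    change algebraMap ℂ P.k (q h₀) ≠ 0
    intro h0
    exact hq₀ ((FaithfulSMul.algebraMap_injective ℂ P.k) (by rw [h0, map_zero]))
  have hch1 : Ch A P.k 0 ((Algebra.ofId ℂ P.k).comp q) q' :=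
    ch_scalar hqk (Ch.nv_right A hch) hc0 hq''
  have hch2 : Ch A P.k n ((Algebra.ofId ℂ P.k).comp q) q₀ := by
    have h1 := Ch.trans A hch1 (Ch.symm A hch)
    rwa [Nat.zero_add] at h1
  have hq₀J : ∀ r ∈ J, q₀ r = 0 := by
    intro r hr
    obtain ⟨d, hd⟩ := hJ r hr
    rw [hq₀'' d r hd, hρJ r hr, map_zero, mul_zero, P.red_zero]
  obtain ⟨y, hy, hyJ, hchy⟩ := spec_chain hft hgen hq₀nv hq₀J hch2
  refine ⟨n, y, ?_, hy, hyJ, hchy⟩
  rw [hm₀]
  have : n + m₀ ≤ e := by omega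
  exact_mod_cast this

/-- **Row C2.** -/
theorem chain_of_fixed [IsDomain R] (hft : Algebra.FiniteType ℂ R)
    (hgen : Algebra.adjoin ℂ {h : R | h ∈ A 1} = ⊤) {x : R →ₐ[ℂ] ℂ} {J : Set R} {e : ℕ}
    {φ : R →ₐ[ℂ] R[X]} (hc : IsCoaction A e φ) (h : Univ A x J e φ)
    (hJ : ∀ r ∈ J, ∃ d : ℕ, r ∈ A d) (q : R →ₐ[ℂ] ℂ) (μ : ℤ) (hq : NV A q)
    (hfix : T.IsFixed (bi A φ) q μ) :
    ∃ (n : ℕ) (y : R →ₐ[ℂ] ℂ), (n : ℤ) + μ ≤ e ∧ NV A y ∧ (∀ h ∈ J, y h = 0) ∧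
      Ch A ℂ n q y := by
  obtain ⟨ρ, hρ, hρJ, h₂, hh₂, hρ0⟩ := h.fin hJ
  let ι : R →ₐ[ℂ] AlgebraicClosure (FractionRing R) :=
    (IsScalarTower.toAlgHom ℂ (FractionRing R) (AlgebraicClosure (FractionRing R))).comp
      (IsScalarTower.toAlgHom ℂ R (FractionRing R))
  have hι : Function.Injective ι := by
    have h1 : Function.Injective (algebraMap R (FractionRing R)) :=
      FaithfulSMul.algebraMap_injective R _
    have h2 : Function.Injective
        (algebraMap (FractionRing R) (AlgebraicClosure (FractionRing R))) :=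
      FaithfulSMul.algebraMap_injective _ _
    exact h2.comp h1
  exact chain_of_fixed_aux ι hι hft hgen hc hJ hρ hρJ hh₂ hρ0 q μ hq hfix

end Vale.Agent.P280.S.H265
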