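import Mathlib

/-!
# P280, Theorem S, row D: a coaction of the multiplicative monoid gives a grading

`φ : R → R[X]` is an algebra homomorphism, homogeneous for the grading `A` of `R`, with
`(φ r)(1) = r` and `φ (φ_m r) = φ_m r X^m` (`φ_m r` is the coefficient of `X^m`).
-/

namespace Vale.Agent.P280.S.H265

open Polynomial

section
variable {R : Type} [CommRing R] [Algebra ℂ R]

/-- A coaction. -/
structure IsCoaction (A : ℕ → Submodule ℂ R) (e : ℕ) (φ : R →ₐ[ℂ] R[X]) : Prop where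
  one : ∀ r, (φ r).eval 1 = r
  mem : ∀ (d : ℕ), ∀ r ∈ A d, ∀ m, (φ r).coeff m ∈ A d
  deg : ∀ (d : ℕ), ∀ r ∈ A d, (φ r).natDegree ≤ d * e
  co : ∀ (r : R) (m : ℕ), φ ((φ r).coeff m) = C ((φ r).coeff m) * X ^ m

/-- The elements of weight `m`. -/
def wt (φ : R →ₐ[ℂ] R[X]) (m : ℕ) : Submodule ℂ R where
  carrier := {r | φ r = C r * X ^ m}
  add_mem' := by
    intro a b ha hb
    simp only [Set.mem_ofPred_eq] at *
    rw [map_add, ha, hb, C_add, add_mul]
  zero_mem' := by simp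
  smul_mem' := by
    intro c a ha
    simp only [Set.mem_ofPred_eq] at *
    rw [map_smul, ha, ← smul_C, smul_mul_assoc]

theorem mem_wt {φ : R →ₐ[ℂ] R[X]} {m : ℕ} {r : R} : r ∈ wt φ m ↔ φ r = C r * X ^ m := Iff.rfl

/-- The bigrading. -/
def bi (A : ℕ → Submodule ℂ R) (φ : R →ₐ[ℂ] R[X]) (i : ℕ × ℤ) : Submodule ℂ R :=
  if 0 ≤ i.2 then A i.1 ⊓ wt φ i.2.toNat else ⊥

theorem mem_bi_nat {A : ℕ → Submodule ℂ R} {φ : R →ₐ[ℂ] R[X]} {d m : ℕ} {r : R} :
    r ∈ bi A φ (d, (m : ℤ)) ↔ r ∈ A d ∧ φ r = C r * X ^ m := by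
  simp [bi, mem_wt]

theorem bi_neg {A : ℕ → Submodule ℂ R} {φ : R →ₐ[ℂ] R[X]} {d : ℕ} {m : ℤ}
    (h : m < 0) {r : R} (hr : r ∈ bi A φ (d, m)) : r = 0 := by
  simpa [bi, not_le.2 h] using hr

theorem eq_nat_of_nonneg {m : ℤ} (h : 0 ≤ m) : m = (m.toNat : ℤ) :=
  (Int.toNat_of_nonneg h).symm

theorem exists_nat {A : ℕ → Submodule ℂ R} {φ : R →ₐ[ℂ] R[X]} {d : ℕ} {m : ℤ}
    {r : R} (hr : r ∈ bi A φ (d, m)) (h0 : r ≠ 0) : ∃ n : ℕ, m = (n : ℤ) := by
  by_cases h : 0 ≤ m
  · exact ⟨_, eq_nat_of_nonneg h⟩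
  · exact absurd (bi_neg (not_le.1 h) hr) h0

theorem bi_le {A : ℕ → Submodule ℂ R} {φ : R →ₐ[ℂ] R[X]} {d : ℕ} {m : ℤ} :
    bi A φ (d, m) ≤ A d := by
  intro r hr
  unfold bi at hr
  split_ifs at hr with h
  · exact hr.1
  · simp only [Submodule.mem_bot] at hr
    rw [hr]; exact Submodule.zero_mem _

end

section
variable {R : Type} [CommRing R] [Algebra ℂ R] (A : ℕ → Submodule ℂ R) [GradedAlgebra A]
variable {e : ℕ} (φ : R →ₐ[ℂ] R[X])

theorem gradedMonoid_bi : SetLike.GradedMonoid (bi A φ) where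
  one_mem := by
    have : (0 : ℕ × ℤ) = (0, ((0 : ℕ) : ℤ)) := by
      ext <;> simp
    rw [this, mem_bi_nat]
    exact ⟨SetLike.GradedOne.one_mem, by simp⟩
  mul_mem := by
    rintro ⟨d, m⟩ ⟨d', m'⟩ a b ha hb
    by_cases ha0 : a = 0
    · rw [ha0, zero_mul]; exact Submodule.zero_mem _
    by_cases hb0 : b = 0
    · rw [hb0, mul_zero]; exact Submodule.zero_mem _
    obtain ⟨n, rfl⟩ := exists_nat ha ha0
    obtain ⟨n', rfl⟩ := exists_nat hb hb0
    rw [mem_bi_nat] at ha hb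
    have h : ((d, (n : ℤ)) + (d', (n' : ℤ)) : ℕ × ℤ)
        = (d + d', ((n + n' : ℕ) : ℤ)) := by
      ext <;> simp
    rw [h, mem_bi_nat]
    refine ⟨SetLike.GradedMul.mul_mem ha.1 hb.1, ?_⟩
    rw [map_mul, ha.2, hb.2, C_mul, pow_add]
    ring

variable {A φ}

/-- The projection of `A d` to weight `m`. -/
noncomputable def pr (h : IsCoaction A e φ) (d m : ℕ) :
    A d →ₗ[ℂ] bi A φ (d, (m : ℤ)) where
  toFun r := ⟨(φ r).coeff m, mem_bi_nat.2 ⟨h.mem d r r.2 m, h.co r m⟩⟩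
  map_add' := by
    intro a b
    ext
    simp
  map_smul' := by
    intro c a
    ext
    simp

/-- The decomposition on `A d`. -/
noncomputable def dec0 (h : IsCoaction A e φ) (d : ℕ) :
    A d →ₗ[ℂ] DirectSum (ℕ × ℤ) (fun i => bi A φ i) :=
  ∑ m ∈ Finset.range (d * e + 1),
    (DirectSum.lof ℂ (ℕ × ℤ) (fun i => bi A φ i) (d, (m : ℤ))).comp (pr h d m)

/-- The decomposition. -/
noncomputable def dec (h : IsCoaction A e φ) :
    R →ₗ[ℂ] DirectSum (ℕ × ℤ) (fun i => bi A φ i) :=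
  (DirectSum.toModule ℂ ℕ _ (fun d => dec0 h d)).comp
    (DirectSum.decomposeLinearEquiv A).toLinearMap

theorem dec_of_mem (h : IsCoaction A e φ) {d : ℕ} {r : R} (hr : r ∈ A d) :
    dec h r = dec0 h d ⟨r, hr⟩ := by
  have : (DirectSum.decomposeLinearEquiv A) r = DirectSum.lof ℂ ℕ (fun d => A d) d ⟨r, hr⟩ := by
    rw [DirectSum.decomposeLinearEquiv_apply, DirectSum.decompose_of_mem A hr]
    rfl
  rw [dec, LinearMap.comp_apply]
  erw [this]
  rw [DirectSum.toModule_lof]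

theorem coe_dec (h : IsCoaction A e φ) (r : R) :
    DirectSum.coeLinearMap (bi A φ) (dec h r) = r := by
  classical
  refine DirectSum.Decomposition.inductionOn A ?_ ?_ ?_ r
  · simp
  · intro d a
    rw [dec_of_mem h a.2, dec0, LinearMap.sum_apply, map_sum]
    have h1 : ∀ m ∈ Finset.range (d * e + 1),
        DirectSum.coeLinearMap (bi A φ) (((DirectSum.lof ℂ (ℕ × ℤ)
          (fun i => bi A φ i) (d, (m : ℤ))).comp (pr h d m)) a) = (φ a).coeff m := by
      intro m _
      rw [LinearMap.comp_apply]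
      erw [DirectSum.coeLinearMap_lof]
      rfl
    have h2 := h.one (a : R)
    rw [Polynomial.eval_eq_sum_range' (n := d * e + 1)
      (Nat.lt_succ_of_le (h.deg d a a.2))] at h2
    rw [Finset.sum_congr rfl h1]
    simpa using h2
  · intro a b ha hb
    rw [map_add, map_add, ha, hb]

theorem dec_coe (h : IsCoaction A e φ) (i : ℕ × ℤ) (b : bi A φ i) :
    dec h (b : R) = DirectSum.lof ℂ (ℕ × ℤ) (fun i => bi A φ i) i b := by
  classical
  obtain ⟨d, m⟩ := i
  by_cases hb : (b : R) = 0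
  · have : b = 0 := by ext; exact hb
    rw [this]; simp
  obtain ⟨n, rfl⟩ := exists_nat b.2 hb
  have hb' := mem_bi_nat.1 b.2
  rw [dec_of_mem h hb'.1, dec0, LinearMap.sum_apply]
  have hn : n ∈ Finset.range (d * e + 1) := by
    rw [Finset.mem_range]
    have := h.deg d b hb'.1
    rw [hb'.2] at this
    by_contra hcon
    have h3 : (C (b : R) * X ^ n).coeff n ≠ 0 := by simpa using hb
    exact h3 (Polynomial.coeff_eq_zero_of_natDegree_lt (by omega))
  rw [Finset.sum_eq_single_of_mem n hn]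
  · rw [LinearMap.comp_apply]
    congr 1
    ext
    change (φ (b : R)).coeff n = b
    rw [hb'.2]; simp
  · intro m _ hmn
    rw [LinearMap.comp_apply]
    have : pr h d m ⟨(b : R), hb'.1⟩ = 0 := by
      ext
      change (φ (b : R)).coeff m = 0
      rw [hb'.2]
      simp [Polynomial.coeff_X_pow, hmn]
    rw [this, map_zero]

/-- The bigrading is a grading. -/
@[reducible] noncomputable def gradedAlgebra_bi (h : IsCoaction A e φ) : GradedAlgebra (bi A φ) :=
  letI := gradedMonoid_bi A φ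
  { gradedMonoid_bi A φ with
    decompose' := dec h
    left_inv := coe_dec h
    right_inv := by
      classical
      intro x
      change dec h (DirectSum.coeLinearMap (bi A φ) x) = x
      have : (dec h).comp (DirectSum.coeLinearMap (bi A φ)) = LinearMap.id := by
        apply DirectSum.linearMap_ext
        intro i
        ext b
        simp only [LinearMap.comp_apply, LinearMap.id_comp]
        erw [DirectSum.coeLinearMap_lof, dec_coe h i b]
      exact LinearMap.congr_fun this x }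

end

end Vale.Agent.P280.S.H265
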