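import Vale.Agent.P280.S.Defs
import Vale.Agent.P280.S.H265.Grading
import Vale.Agent.P280.T.Tools

/-!
# P280, Theorem S, row D: the group law

From the uniqueness of the curves through `x` and a general point: the universal curve
`φ : R → R[X]` is a coaction of the multiplicative monoid.
-/

open Polynomial

namespace Vale.Agent.P280.S.H265

open Vale.Agent.P280.T (exists_algHom exists_point linearMap_ext_graded algHom_ext_graded)

variable {R : Type} [CommRing R] [Algebra ℂ R]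

theorem eq_zero_of_points [Algebra.FiniteType ℂ R] [IsDomain R] {g u : R} (hg : g ≠ 0)
    (h : ∀ z : R →ₐ[ℂ] ℂ, z g ≠ 0 → z u = 0) : u = 0 := by
  by_contra hu
  have h1 : g * u ∉ (⊥ : Ideal R).radical := by
    rw [(Ideal.isPrime_bot (α := R)).radical, Ideal.mem_bot]
    exact mul_ne_zero hg hu
  obtain ⟨z, -, hz⟩ := exists_point h1
  rw [map_mul] at hz
  exact (right_ne_zero_of_mul hz) (h z (left_ne_zero_of_mul hz))

theorem poly_agree {p q w : ℂ[X]} (hw : w ≠ 0)
    (h : ∀ s : ℂ, s ≠ 0 → w.eval s ≠ 0 → p.eval s = q.eval s) : p = q := by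
  have h1 : (p - q) * (w * X) = 0 := by
    apply Polynomial.funext
    intro s
    rw [eval_mul, eval_sub, eval_mul, eval_X, eval_zero]
    by_cases hs : s = 0
    · rw [hs]; ring
    by_cases hws : w.eval s = 0
    · rw [hws]; ring
    rw [h s hs hws]; ring
  rcases mul_eq_zero.1 h1 with h2 | h2
  · exact sub_eq_zero.1 h2
  · exact absurd h2 (mul_ne_zero hw X_ne_zero)

variable {A : ℕ → Submodule ℂ R}

/-- The specialization of the universal curve at the point `z`. -/
noncomputable def sp (φ : R →ₐ[ℂ] R[X]) (z : R →ₐ[ℂ] ℂ) : R →ₐ[ℂ] ℂ[X] :=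
  (Polynomial.mapAlgHom z).comp φ

theorem sp_apply (φ : R →ₐ[ℂ] R[X]) (z : R →ₐ[ℂ] ℂ) (r : R) :
    sp φ z r = (φ r).map (z : R →+* ℂ) := rfl

theorem coeff_sp (φ : R →ₐ[ℂ] R[X]) (z : R →ₐ[ℂ] ℂ) (r : R) (m : ℕ) :
    (sp φ z r).coeff m = z ((φ r).coeff m) := by
  rw [sp_apply, coeff_map]; rfl

/-! ### Scaling of curves -/

theorem sol_scale {x z : R →ₐ[ℂ] ℂ} {J : Set R} {e : ℕ} {ψ : R →ₐ[ℂ] ℂ[X]}
    (h : Sol A x J e z ψ) {s : ℂ} (hs : s ≠ 0) :
    Sol A x J e ((Polynomial.aeval s).comp ψ) ((Polynomial.aeval (C s * X : ℂ[X])).comp ψ) := by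
  have hc : ∀ (r : R) (m : ℕ), ((Polynomial.aeval (C s * X : ℂ[X])).comp ψ r).coeff m
      = (ψ r).coeff m * s ^ m := by
    intro r m
    rw [AlgHom.comp_apply]
    change ((ψ r).comp (C s * X)).coeff m = _
    rw [comp_C_mul_X_coeff]
  constructor
  · intro d r hr
    rw [natDegree_le_iff_coeff_eq_zero]
    intro N hN
    rw [hc, coeff_eq_zero_of_natDegree_lt (lt_of_le_of_lt (h.deg d r hr) hN), zero_mul]
  · obtain ⟨c, hc0, h1⟩ := h.starts
    refine ⟨c, hc0, fun d r hr => ?_⟩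
    rw [hc, h1 d r hr]; ring
  · obtain ⟨y, hy, hJ, c, hc0, h1⟩ := h.ends
    refine ⟨y, hy, hJ, c * s ^ e, mul_ne_zero hc0 (pow_ne_zero _ hs), fun d r hr => ?_⟩
    rw [hc, h1 d r hr, mul_pow, ← pow_mul, mul_comm e d]; ring
  · intro r
    change ((ψ r).comp (C s * X)).eval 1 = (Polynomial.aeval s) (ψ r)
    rw [eval_comp, eval_mul, eval_C, eval_X, mul_one]
    rfl

variable [GradedAlgebra A]

theorem exists_cone (z : R →ₐ[ℂ] ℂ) :
    ∃ P : R →ₐ[ℂ] ℂ[X], ∀ d, ∀ h ∈ A d, P h = C (z h) * X ^ d := by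
  obtain ⟨P, hP⟩ := exists_algHom A
    (fun d => ((LinearMap.mulRight ℂ (X ^ d : ℂ[X])).comp
      ((Polynomial.CAlgHom (R := ℂ) (A := ℂ)).toLinearMap.comp z.toLinearMap)))
    (by simp) (by
      intro i j a _ b _
      simp only [LinearMap.comp_apply, LinearMap.mulRight_apply, AlgHom.toLinearMap_apply,
        map_mul, pow_add]
      ring)
  exact ⟨P, fun d h hh => by rw [hP d h hh]; rfl⟩

theorem sol_cone {x z : R →ₐ[ℂ] ℂ} {J : Set R} {e : ℕ} {ψ : R →ₐ[ℂ] ℂ[X]}
    (h : Sol A x J e z ψ) {s : ℂ} (hs : s ≠ 0) {z' : R →ₐ[ℂ] ℂ}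
    (hz' : ∀ d, ∀ h ∈ A d, z' h = s ^ d * z h) :
    ∃ ψ' : R →ₐ[ℂ] ℂ[X], Sol A x J e z' ψ' ∧ ∀ d, ∀ h ∈ A d, ψ' h = C (s ^ d) * ψ h := by
  obtain ⟨ψ', hψ'⟩ := exists_algHom A
    (fun d => ((LinearMap.mulLeft ℂ (C (s ^ d) : ℂ[X])).comp ψ.toLinearMap))
    (by simp) (by
      intro i j a _ b _
      simp only [LinearMap.comp_apply, LinearMap.mulLeft_apply, AlgHom.toLinearMap_apply,
        map_mul, pow_add, C_mul]
      ring)
  have h2 : ∀ d, ∀ h ∈ A d, ψ' h = C (s ^ d) * ψ h := fun d h hh => hψ' d h hh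
  refine ⟨ψ', ?_, h2⟩
  constructor
  · intro d r hr
    rw [h2 d r hr]
    exact (natDegree_C_mul_le _ _).trans (h.deg d r hr)
  · obtain ⟨c, hc0, h1⟩ := h.starts
    refine ⟨s * c, mul_ne_zero hs hc0, fun d r hr => ?_⟩
    rw [h2 d r hr, coeff_C_mul, h1 d r hr, mul_pow]; ring
  · obtain ⟨y, hy, hJ, c, hc0, h1⟩ := h.ends
    refine ⟨y, hy, hJ, s * c, mul_ne_zero hs hc0, fun d r hr => ?_⟩
    rw [h2 d r hr, coeff_C_mul, h1 d r hr, mul_pow]; ring
  · have h3 : ((Polynomial.aeval (1 : ℂ)).comp ψ') = z' := by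
      apply algHom_ext_graded A
      intro d r hr
      rw [hz' d r hr, ← h.one r, AlgHom.comp_apply, h2 d r hr]
      change ((C (s ^ d) * ψ r : ℂ[X])).eval 1 = _
      rw [eval_mul, eval_C]
    intro r
    rw [← h3]; rfl

/-! ### The universal curve -/

/-- The curve over the fraction field has coefficients in `R`. -/
def Univ (A : ℕ → Submodule ℂ R) (x : R →ₐ[ℂ] ℂ) (J : Set R) (e : ℕ) [IsDomain R]
    (φ : R →ₐ[ℂ] R[X]) : Prop :=
  Sol A x J e (k := FractionRing R) (IsScalarTower.toAlgHom ℂ R (FractionRing R))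
    ((Polynomial.mapAlgHom (IsScalarTower.toAlgHom ℂ R (FractionRing R))).comp φ)

section univ
variable [IsDomain R] {x : R →ₐ[ℂ] ℂ} {J : Set R} {e : ℕ} {φ : R →ₐ[ℂ] R[X]}

theorem Univ.coeff' (r : R) (m : ℕ) :
    (((Polynomial.mapAlgHom (IsScalarTower.toAlgHom ℂ R (FractionRing R))).comp φ) r).coeff m
      = algebraMap R (FractionRing R) ((φ r).coeff m) := by
  rw [AlgHom.comp_apply]
  change ((φ r).map _).coeff m = _
  rw [coeff_map]; rfl

theorem Univ.deg (h : Univ A x J e φ) (d : ℕ) (r : R) (hr : r ∈ A d) :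
    (φ r).natDegree ≤ d * e := by
  rw [natDegree_le_iff_coeff_eq_zero]
  intro N hN
  have h1 := coeff_eq_zero_of_natDegree_lt (lt_of_le_of_lt (Sol.deg h d r hr) hN)
  rw [Univ.coeff'] at h1
  exact (FaithfulSMul.algebraMap_injective R (FractionRing R)) (by rw [h1, map_zero])

theorem Univ.one (h : Univ A x J e φ) (r : R) : (φ r).eval 1 = r := by
  have h1 := Sol.one h r
  rw [AlgHom.comp_apply] at h1
  change ((φ r).map (algebraMap R (FractionRing R))).eval 1 = algebraMap R (FractionRing R) r at h1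
  rw [eval_one_map] at h1
  exact (FaithfulSMul.algebraMap_injective R (FractionRing R)) h1

theorem Univ.start (h : Univ A x J e φ) (hx : NV A x) :
    ∃ L : R, L ≠ 0 ∧ (∃ h₁ ∈ A 1, x h₁ ≠ 0 ∧ L = (x h₁)⁻¹ • (φ h₁).coeff 0) ∧
      ∀ d, ∀ r ∈ A d, (φ r).coeff 0 = L ^ d * algebraMap ℂ R (x r) := by
  have hinj := FaithfulSMul.algebraMap_injective R (FractionRing R)
  obtain ⟨c, hc0, h1⟩ := Sol.starts h
  obtain ⟨h₁, hh₁, hx₁⟩ := hx
  have h2 : ∀ d, ∀ r ∈ A d, algebraMap R (FractionRing R) ((φ r).coeff 0)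
      = c ^ d * algebraMap ℂ (FractionRing R) (x r) := by
    intro d r hr
    have h4 := h1 d r hr
    rw [Univ.coeff'] at h4
    rw [h4]; rfl
  have h3 : algebraMap R (FractionRing R) ((x h₁)⁻¹ • (φ h₁).coeff 0) = c := by
    rw [Algebra.smul_def, map_mul, h2 1 h₁ hh₁, ← IsScalarTower.algebraMap_apply, pow_one,
      mul_comm c, ← mul_assoc, ← map_mul, inv_mul_cancel₀ hx₁, map_one, one_mul]
  refine ⟨(x h₁)⁻¹ • (φ h₁).coeff 0, ?_, ⟨h₁, hh₁, hx₁, rfl⟩, ?_⟩
  · intro h0
    rw [h0, map_zero] at h3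
    exact hc0 h3.symm
  · intro d r hr
    apply hinj
    rw [h2 d r hr, map_mul, map_pow, h3, ← IsScalarTower.algebraMap_apply]

theorem Univ.fin (h : Univ A x J e φ) (hJ : ∀ r ∈ J, ∃ d : ℕ, r ∈ A d) :
    ∃ ρ : R →ₐ[ℂ] R, (∀ d, ∀ r ∈ A d, ρ r = (φ r).coeff (d * e)) ∧ (∀ r ∈ J, ρ r = 0) ∧
      ∃ h₂ ∈ A 1, ρ h₂ ≠ 0 := by
  have hinj := FaithfulSMul.algebraMap_injective R (FractionRing R)
  obtain ⟨ρ, hρ⟩ := exists_algHom A
    (fun d => ((Polynomial.lcoeff R (d * e)).restrictScalars ℂ).comp φ.toLinearMap)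
    (by simp) (by
      intro i j a ha b hb
      simp only [LinearMap.comp_apply, AlgHom.toLinearMap_apply, LinearMap.coe_restrictScalars,
        lcoeff_apply, map_mul, add_mul]
      exact coeff_mul_add_eq_of_natDegree_le (h.deg i a ha) (h.deg j b hb))
  have hρ' : ∀ d, ∀ r ∈ A d, ρ r = (φ r).coeff (d * e) := fun d r hr => hρ d r hr
  obtain ⟨y, ⟨h₂, hh₂, hy₂⟩, hyJ, c, hc0, h1⟩ := Sol.ends h
  have h2 : ∀ d, ∀ r ∈ A d, algebraMap R (FractionRing R) (ρ r) = c ^ d * y r := by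
    intro d r hr
    rw [← h1 d r hr, Univ.coeff', hρ' d r hr]
  refine ⟨ρ, hρ', ?_, h₂, hh₂, ?_⟩
  · intro r hr
    obtain ⟨d, hd⟩ := hJ r hr
    apply hinj
    rw [h2 d r hd, hyJ r hr, mul_zero, map_zero]
  · intro h0
    have h3 := h2 1 h₂ hh₂
    rw [h0, map_zero, pow_one] at h3
    rcases mul_eq_zero.1 h3.symm with h4 | h4
    · exact hc0 h4
    · exact hy₂ h4

/-- Specialization at a closed point. -/
theorem Univ.sol (h : Univ A x J e φ) {L : R}
    (hL : ∀ d, ∀ r ∈ A d, (φ r).coeff 0 = L ^ d * algebraMap ℂ R (x r))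
    {ρ : R →ₐ[ℂ] R} (hρ : ∀ d, ∀ r ∈ A d, ρ r = (φ r).coeff (d * e)) (hρJ : ∀ r ∈ J, ρ r = 0)
    {h₂ : R} (hh₂ : h₂ ∈ A 1) {z : R →ₐ[ℂ] ℂ} (hzL : z L ≠ 0) (hz₂ : z (ρ h₂) ≠ 0) :
    Sol A x J e z (sp φ z) := by
  constructor
  · intro d r hr
    rw [sp_apply]
    exact natDegree_map_le.trans (h.deg d r hr)
  · refine ⟨z L, hzL, fun d r hr => ?_⟩
    rw [coeff_sp, hL d r hr, map_mul, map_pow, AlgHom.commutes]
    rfl
  · refine ⟨z.comp ρ, ⟨h₂, hh₂, hz₂⟩, fun r hr => ?_, 1, one_ne_zero, fun d r hr => ?_⟩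
    · rw [AlgHom.comp_apply, hρJ r hr, map_zero]
    · rw [coeff_sp, ← hρ d r hr, one_pow, one_mul]; rfl
  · intro r
    rw [sp_apply, eval_one_map, h.one r]; rfl

/-- **The group law**: the universal curve is a coaction. -/
theorem Univ.coaction [Algebra.FiniteType ℂ R] (h : Univ A x J e φ) (hG : Good A x J e) :
    IsCoaction A e φ := by
  classical
  obtain ⟨L, hL0, -, hL⟩ := h.start hG.nv
  obtain ⟨ρ, hρ, hρJ, h₂, hh₂, hρ0⟩ := h.fin hG.hom
  obtain ⟨d₀, -, g, -, hg0, huniq⟩ := hG.uniq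
  have hg' : g * (L * ρ h₂) ≠ 0 := mul_ne_zero hg0 (mul_ne_zero hL0 hρ0)
  have hsol : ∀ z : R →ₐ[ℂ] ℂ, z (g * (L * ρ h₂)) ≠ 0 → Sol A x J e z (sp φ z) := by
    intro z hz
    rw [map_mul, map_mul] at hz
    exact h.sol hL hρ hρJ hh₂ (left_ne_zero_of_mul (right_ne_zero_of_mul hz))
      (right_ne_zero_of_mul (right_ne_zero_of_mul hz))
  have hun : ∀ z : R →ₐ[ℂ] ℂ, z (g * (L * ρ h₂)) ≠ 0 → ∀ ψ, Sol A x J e z ψ → ψ = sp φ z := by
    intro z hz ψ hψ
    have hz' : z g ≠ 0 := by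
      rw [map_mul] at hz
      exact left_ne_zero_of_mul hz
    exact (huniq z hz').unique hψ (hsol z hz)
  have hmem : ∀ (d : ℕ), ∀ r ∈ A d, ∀ m, (φ r).coeff m ∈ A d := by
    intro d r hr m
    set u := (φ r).coeff m with hu
    -- the components of `u` of degree `k ≠ d` vanish
    have hcomp : ∀ k, k ≠ d → ((DirectSum.decompose A u) k : R) = 0 := by
      intro k hk
      apply eq_zero_of_points hg'
      intro z hz
      obtain ⟨P, hP⟩ := exists_cone (A := A) z
      have hP1 : ∀ r : R, (P r).eval 1 = z r := by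
        intro r
        have h3 : ((Polynomial.aeval (1 : ℂ)).comp P) = z := by
          apply algHom_ext_graded A
          intro d r hr
          rw [AlgHom.comp_apply, hP d r hr]
          change ((C (z r) * X ^ d : ℂ[X])).eval 1 = _
          simp
        rw [← h3]; rfl
      have hw : P (g * (L * ρ h₂)) ≠ 0 := by
        intro h0
        have h4 := hP1 (g * (L * ρ h₂))
        rw [h0, eval_zero] at h4
        exact hz h4.symm
      have hPu : P u = C (z u) * X ^ d := by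
        apply poly_agree hw
        intro s hs hws
        set z' : R →ₐ[ℂ] ℂ := (Polynomial.aeval s).comp P with hz'
        have hz's : ∀ d, ∀ h ∈ A d, z' h = s ^ d * z h := by
          intro d h hh
          rw [hz', AlgHom.comp_apply, hP d h hh]
          change ((C (z h) * X ^ d : ℂ[X])).eval s = _
          rw [eval_mul, eval_C, eval_pow, eval_X, mul_comm]
        obtain ⟨ψ', hψ', hψ'2⟩ := sol_cone (hsol z hz) hs hz's
        have h5 := hun z' hws ψ' hψ'
        have h6 : z' u = s ^ d * z u := by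
          have h7 := congrArg (fun ψ : R →ₐ[ℂ] ℂ[X] => (ψ r).coeff m) h5
          simp only [hψ'2 d r hr, coeff_C_mul, coeff_sp] at h7
          rw [hu]; exact h7.symm
        change z' u = _
        rw [h6, eval_mul, eval_C, eval_pow, eval_X, mul_comm]
      -- compare coefficients
      have hsum : P u = ∑ i ∈ (DirectSum.decompose A u).support,
          C (z ((DirectSum.decompose A u) i : R)) * X ^ i := by
        conv_lhs => rw [← DirectSum.sum_support_decompose A u]
        rw [map_sum]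
        exact Finset.sum_congr rfl (fun i _ => hP i _ (SetLike.coe_mem _))
      have h8 : (P u).coeff k = z ((DirectSum.decompose A u) k : R) := by
        rw [hsum, finsetSum_coeff]
        simp only [coeff_C_mul, coeff_X_pow]
        by_cases hkm : k ∈ (DirectSum.decompose A u).support
        · rw [Finset.sum_eq_single_of_mem k hkm]
          · simp
          · intro i _ hik
            rw [if_neg (Ne.symm hik), mul_zero]
        · rw [Finset.sum_eq_zero]
          · rw [DFinsupp.notMem_support_iff] at hkm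
            rw [hkm]; simp
          · intro i hi
            rw [if_neg, mul_zero]
            rintro rfl
            exact hkm hi
      rw [← h8, hPu]
      simp [coeff_X_pow, hk]
    have h9 : u = ((DirectSum.decompose A u) d : R) := by
      conv_lhs => rw [← DirectSum.sum_support_decompose A u]
      by_cases hd : d ∈ (DirectSum.decompose A u).support
      · rw [Finset.sum_eq_single_of_mem d hd]
        intro i _ hid
        exact hcomp i hid
      · rw [Finset.sum_eq_zero]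
        · rw [DFinsupp.notMem_support_iff] at hd
          rw [hd]; simp
        · intro i hi
          apply hcomp i
          rintro rfl
          exact hd hi
    rw [h9]
    exact SetLike.coe_mem _
  refine ⟨h.one, hmem, h.deg, ?_⟩
  intro r m
  set u := (φ r).coeff m with hu
  have key : ∀ z : R →ₐ[ℂ] ℂ, z (g * (L * ρ h₂)) ≠ 0 → sp φ z u = C (z u) * X ^ m := by
    intro z hz
    have hw : sp φ z (g * (L * ρ h₂)) ≠ 0 := by
      intro h0
      have h4 := (hsol z hz).one (g * (L * ρ h₂))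
      rw [h0, eval_zero] at h4
      exact hz h4.symm
    apply poly_agree hw
    intro s hs hws
    have h5 := hun ((Polynomial.aeval s).comp (sp φ z)) hws _ (sol_scale (hsol z hz) hs)
    have h7 := congrArg (fun ψ : R →ₐ[ℂ] ℂ[X] => (ψ r).coeff m) h5
    change (((Polynomial.aeval (C s * X : ℂ[X])).comp (sp φ z)) r).coeff m
      = (sp φ ((Polynomial.aeval s).comp (sp φ z)) r).coeff m at h7
    rw [coeff_sp (z := (Polynomial.aeval s).comp (sp φ z))] at h7
    have h8 : (((Polynomial.aeval (C s * X : ℂ[X])).comp (sp φ z)) r).coeff m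
        = (sp φ z r).coeff m * s ^ m := by
      rw [AlgHom.comp_apply]
      change ((sp φ z r).comp (C s * X)).coeff m = _
      rw [comp_C_mul_X_coeff]
    rw [h8, coeff_sp, ← hu] at h7
    rw [eval_mul, eval_C, eval_pow, eval_X, h7]
    rfl
  ext n
  rw [coeff_C_mul]
  rw [← sub_eq_zero]
  apply eq_zero_of_points hg'
  intro z hz
  have h9 := congrArg (fun p : ℂ[X] => p.coeff n) (key z hz)
  simp only [coeff_sp, coeff_C_mul] at h9
  rw [map_sub, map_mul, h9, sub_eq_zero]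
  simp only [coeff_X_pow]
  split_ifs <;> simp

end univ

end Vale.Agent.P280.S.H265
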