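import Vale.Agent.P280.S.H265.C2
import Vale.Agent.P280.S.H730.RowE
import Vale.Agent.P280.S.H730.Glue

/-!
# P280, Theorem S: assembly from the universal curve
-/

open Polynomial

namespace Vale.Agent.P280.S.H265

variable {R : Type} [CommRing R] [Algebra ℂ R] {A : ℕ → Submodule ℂ R} [GradedAlgebra A]

/-- The theorem, from the regularity of the universal curve. -/
theorem homogeneous_of_univ (hX : IsProjectiveManifold A) (hN : NefOnRationalCurves A)
    {x : R →ₐ[ℂ] ℂ} {J : Set R} {e : ℕ} (hG : Good A x J e)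
    (hU : ∀ [IsDomain R], ∃ φ : R →ₐ[ℂ] R[X], Univ A x J e φ) :
    IsHomogeneousManifold A ∧ IsTransitive A := by
  have hD : IsDomain R := hX.domain
  have hF : Algebra.FiniteType ℂ R := hX.finiteType
  obtain ⟨φ, hφ⟩ := hU
  have hc := hφ.coaction hG
  obtain ⟨L, -, hL0, hxL, -, hL⟩ := exists_lam hφ hG.nv hc
  let : GradedAlgebra (bi A φ) := gradedAlgebra_bi hc
  exact homogeneous_of_grading (refines_bi hc) hX hN hG.nv hG.min (fixed_x hL0 hL)
    (fun χ hχ => pos_x hL0 hxL hL hχ) (chain_of_fixed hF hX.gen hc hφ hG.hom)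

end Vale.Agent.P280.S.H265
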