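import Vale.Agent.P280.S.H265.Group

/-!
# P280, Theorem S, row D: `x` is the isolated source of the `ℂ^*`-action
-/

open Polynomial

namespace Vale.Agent.P280.S.H265

variable {R : Type} [CommRing R] [Algebra ℂ R] {A : ℕ → Submodule ℂ R} [GradedAlgebra A]

section weights
variable {e : ℕ} {φ : R →ₐ[ℂ] R[X]}

omit [GradedAlgebra A] in
theorem coeff_mem_bi (hc : IsCoaction A e φ) {d : ℕ} {r : R} (hr : r ∈ A d) (m : ℕ) :
    (φ r).coeff m ∈ bi A φ (d, (m : ℤ)) :=
  mem_bi_nat.2 ⟨hc.mem d r hr m, hc.co r m⟩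

omit [GradedAlgebra A] in
/-- The decomposition of an element of degree `d` into weight vectors. -/
theorem eq_sum_coeff (hc : IsCoaction A e φ) {d : ℕ} {r : R} (hr : r ∈ A d) :
    r = ∑ m ∈ Finset.range (d * e + 1), (φ r).coeff m := by
  have h2 := hc.one r
  rw [Polynomial.eval_eq_sum_range' (n := d * e + 1) (Nat.lt_succ_of_le (hc.deg d r hr))] at h2
  simpa using h2.symm

omit [GradedAlgebra A] in
/-- The weights of `A d` are in `[0, d e]`. -/
theorem weight_mem (hc : IsCoaction A e φ) {d : ℕ} {m : ℤ} {r : R} (hr : r ∈ bi A φ (d, m))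
    (h0 : r ≠ 0) : 0 ≤ m ∧ m ≤ ((d * e : ℕ) : ℤ) := by
  obtain ⟨n, rfl⟩ := exists_nat hr h0
  have h1 := mem_bi_nat.1 hr
  refine ⟨Int.natCast_nonneg n, ?_⟩
  have h2 := hc.deg d r h1.1
  rw [h1.2] at h2
  have h3 : n ≤ d * e := by
    by_contra hcon
    have h3 : (C r * X ^ n).coeff n ≠ 0 := by simpa using h0
    exact h3 (Polynomial.coeff_eq_zero_of_natDegree_lt (by omega))
  exact_mod_cast h3

omit [GradedAlgebra A] in
/-- Induction along the bigrading. -/
theorem bi_induction (hc : IsCoaction A e φ) {p : R → Prop} {d : ℕ} {r : R} (hr : r ∈ A d)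
    (h0 : p 0) (hadd : ∀ a b, p a → p b → p (a + b))
    (hbi : ∀ m : ℕ, ∀ a ∈ bi A φ (d, (m : ℤ)), p a) : p r := by
  rw [eq_sum_coeff hc hr]
  refine Finset.sum_induction _ p hadd h0 ?_
  intro m _
  exact hbi m _ (coeff_mem_bi hc hr m)

end weights

section source
variable [IsDomain R] {x : R →ₐ[ℂ] ℂ} {J : Set R} {e : ℕ} {φ : R →ₐ[ℂ] R[X]}

/-- The weight vector `L` of weight `0` and degree `1`. -/
theorem exists_lam (h : Univ A x J e φ) (hx : NV A x) (hc : IsCoaction A e φ) :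
    ∃ L ∈ A 1, L ≠ 0 ∧ x L = 1 ∧ φ L = C L ∧
      ∀ d, ∀ r ∈ A d, (φ r).coeff 0 = L ^ d * algebraMap ℂ R (x r) := by
  obtain ⟨L, hL0, ⟨h₁, hh₁, hx₁, hL1⟩, hL⟩ := h.start hx
  have hLm : L ∈ A 1 := by
    rw [hL1]
    exact Submodule.smul_mem _ _ (hc.mem 1 h₁ hh₁ 0)
  have hφL : φ L = C L := by
    conv_lhs => rw [hL1]
    rw [map_smul, hc.co h₁ 0, pow_zero, mul_one, smul_C, ← hL1]
  refine ⟨L, hLm, hL0, ?_, hφL, hL⟩
  have h2 := hL 1 L hLm
  rw [hφL, coeff_C_zero, pow_one] at h2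
  have h3 : L * (algebraMap ℂ R (x L) - 1) = 0 := by
    rw [mul_sub, ← h2, mul_one, sub_self]
  rcases mul_eq_zero.1 h3 with h4 | h4
  · exact absurd h4 hL0
  · have h5 := sub_eq_zero.1 h4
    rw [← map_one (algebraMap ℂ R)] at h5
    exact (FaithfulSMul.algebraMap_injective ℂ R) h5

variable {L : R}

omit [IsDomain R] [GradedAlgebra A] in
theorem bi_zero (hL : ∀ d, ∀ r ∈ A d, (φ r).coeff 0 = L ^ d * algebraMap ℂ R (x r)) {d : ℕ}
    {r : R} (hr : r ∈ bi A φ (d, (0 : ℤ))) : r = x r • L ^ d := by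
  have hr' : r ∈ bi A φ (d, ((0 : ℕ) : ℤ)) := hr
  have h1 := mem_bi_nat.1 hr'
  have h2 := hL d r h1.1
  rw [h1.2, pow_zero, mul_one, coeff_C_zero] at h2
  rw [Algebra.smul_def, mul_comm]
  exact h2

omit [GradedAlgebra A] in
/-- `x` vanishes on positive weights. -/
theorem x_pos (hL0 : L ≠ 0)
    (hL : ∀ d, ∀ r ∈ A d, (φ r).coeff 0 = L ^ d * algebraMap ℂ R (x r)) {d : ℕ}
    {m : ℤ} {r : R} (hr : r ∈ bi A φ (d, m)) (hm : m ≠ 0) : x r = 0 := by
  by_cases h0 : r = 0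
  · rw [h0, map_zero]
  obtain ⟨n, rfl⟩ := exists_nat hr h0
  have hn : n ≠ 0 := by rintro rfl; exact hm rfl
  have h1 := mem_bi_nat.1 hr
  have h2 := hL d r h1.1
  rw [h1.2] at h2
  have h3 : (C r * X ^ n).coeff 0 = 0 := by
    rw [coeff_C_mul, coeff_X_pow, if_neg (Ne.symm hn), mul_zero]
  rw [h3] at h2
  rcases mul_eq_zero.1 h2.symm with h4 | h4
  · exact absurd h4 (pow_ne_zero _ hL0)
  · exact (FaithfulSMul.algebraMap_injective ℂ R) (by rw [h4, map_zero])

omit [GradedAlgebra A] in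
theorem fixed_x (hL0 : L ≠ 0)
    (hL : ∀ d, ∀ r ∈ A d, (φ r).coeff 0 = L ^ d * algebraMap ℂ R (x r)) :
    T.IsFixed (bi A φ) x 0 := by
  intro d m r hr hx
  rw [smul_zero]
  by_contra hm
  exact hx (x_pos hL0 hL hr hm)

omit [GradedAlgebra A] in
/-- The tangent weights at `x` are positive. -/
theorem pos_x (hL0 : L ≠ 0) (hxL : x L = 1)
    (hL : ∀ d, ∀ r ∈ A d, (φ r).coeff 0 = L ^ d * algebraMap ℂ R (x r)) {χ : ℤ}
    (h : T.TangentWeight (bi A φ) x 0 χ) : 1 ≤ χ := by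
  obtain ⟨v, hv, hw, hne⟩ := h
  by_contra hχ
  have hχ' : χ ≤ 0 := by omega
  have hv1 : ∀ n : ℕ, v (L ^ n) = n * v L := by
    intro n
    induction n with
    | zero =>
      have h1 := hv 1 1
      have hx1 : x 1 = 1 := map_one x
      rw [mul_one, hx1, one_mul] at h1
      have : v 1 = 0 := by linear_combination -h1
      rw [pow_zero, this]; simp
    | succ n ih =>
      rw [pow_succ, hv, ih, map_pow, hxL, one_pow]
      push_cast; ring
  obtain ⟨d, m, r, hr, hrne⟩ := hne (v L)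
  apply hrne
  by_cases hm : m = 0
  · subst hm
    have h1 := bi_zero (x := x) hL hr
    have h2 : v r = x r * (d * v L) := by
      conv_lhs => rw [h1]
      rw [map_smul, hv1, smul_eq_mul]
    rw [h2]; ring
  · rw [x_pos hL0 hL hr hm, mul_zero]
    by_contra hvr
    have h3 := hw d m r hr hvr
    rw [smul_zero, zero_add] at h3
    by_cases h0 : r = 0
    · exact hvr (by rw [h0, map_zero])
    obtain ⟨n, rfl⟩ := exists_nat hr h0
    have : (n : ℤ) ≤ 0 := by rw [h3]; exact hχ'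
    exact hm (le_antisymm this (Int.natCast_nonneg n))

end source

end Vale.Agent.P280.S.H265
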